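import Crest.Agent.R66.BGlueD

/-!
# Row 66: `hloc`, the input of `final_of` from part (B) (helper12)
-/
set_option autoImplicit false

namespace Crest.Agent.R66

theorem hloc : ∀ (F : Type) [Field F] [Fintype F] (m n : ℕ) [NeZero m], 3 ≤ m → 2 ≤ n →
    ∀ v : CV (Aq F m n), 0 < wt (chams (Aq F m n)) {v} →
      B.CIso (lk (chams (Aq F m n)) {v}) (B.Yc F m) :=
  fun _ _ _ _ _ _ _ hn v _ => B.local_Gq hn v

end Crest.Agent.R66
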