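import Crest.Agent.R66.DGTop

/-!
# Row 66: final forms of part (D) and of the degree bounds (helper94)
-/

set_option autoImplicit false

namespace Crest.Agent.R66

/-- (D) mixing -/
theorem mix_final (m d : ℕ) [NeZero m] (hm : 3 ≤ m) (hd : d + 2 ≤ m) (lam : ℝ) (hlam : 0 < lam) :
    ∃ q0 : ℕ, ∀ (F : Type) [Field F] [Fintype F], q0 ≤ Fintype.card F → ∀ n ≥ 2,
      Mix (chams (Aq F m n)) m d lam := by
  obtain ⟨q0, hq0⟩ := mix_Aq m d hm hd lam hlam
  exact ⟨q0, fun F _ _ hq n hn => hq0 F hq n hn (intP F hm hn)⟩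

/-- (DEG) bounded degrees -/
theorem deg_final (F : Type) [Field F] [Fintype F] (m : ℕ) [NeZero m] (hm : 3 ≤ m) :
    ∃ Δ : ℕ, ∀ n ≥ 2, ∀ v : CV (Aq F m n),
      1 ≤ wt (chams (Aq F m n)) {v} ∧ wt (chams (Aq F m n)) {v} ≤ Δ :=
  ⟨Fintype.card F ^ (m * m), fun _ hn v => wt_vertex hn (intP F hm hn) v⟩

/-- (BIG) the complexes are arbitrarily large -/
theorem big_final (F : Type) [Field F] [Fintype F] (m : ℕ) [NeZero m] (hm : 3 ≤ m) (N : ℕ) :
    ∃ n ≥ 2, N ≤ Fintype.card (CV (Aq F m n)) := by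
  set q := Fintype.card F with hq
  have hq2 : 2 ≤ q := Fintype.one_lt_card
  refine ⟨N + m * m + 2, by omega, ?_⟩
  have h := card_big (F := F) (m := m) (n := N + m * m + 2) hm
  rw [← hq, show N + m * m + 2 = (N + 2) + m * m by ring, pow_add] at h
  have hpos : 0 < q ^ (m * m) := by positivity
  have h1 : q ^ (N + 2) ≤ Fintype.card (CV (Aq F m ((N + 2) + m * m))) :=
    Nat.le_of_mul_le_mul_right h hpos
  have h2 : N < q ^ (N + 2) := lt_of_lt_of_le (by omega : N < N + 2)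
    (Nat.lt_pow_self hq2).le
  rw [show N + m * m + 2 = (N + 2) + m * m by ring]
  omega

end Crest.Agent.R66
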