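import Crest.Agent.R66.LGTri
import Crest.Agent.R66.LNrm
import Crest.Agent.R66.LBM

/-!
# Row 66, part (C-L), glue: every face of `Xhat` is the image of standard complements (helper62)
-/

set_option autoImplicit false
set_option linter.unusedSectionVars false

namespace Crest.Agent.R66

variable {F : Type*} [Field F] {m : ℕ}

theorem BM_subset_of_isCompl {M : Submodule F (VV F)} {k : ℤ} (h : IsCompl M (VL k)) :
    BM M ⊆ Set.Ioi k := by
  rintro b ⟨v, hv, h1, h2⟩
  rw [Set.mem_Ioi]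
  by_contra hb
  have h3 : v ∈ (VL k : Submodule F (VV F)) := fun j hj => h2 j (lt_of_le_of_lt (not_lt.1 hb) hj)
  have h4 : v ∈ M ⊓ VL k := ⟨hv, h3⟩
  rw [h.inf_eq_bot, Submodule.mem_bot] at h4
  rw [h4] at h1
  exact h1 rfl

theorem exists_monic_of_isCompl {M : Submodule F (VV F)} {k : ℤ} (h : IsCompl M (VL k)) {b : ℤ}
    (hb : k < b) : ∃ v ∈ M, v b = 1 ∧ ∀ j, b < j → v j = 0 := by
  have h1 : (Finsupp.single b (1 : F) : VV F) ∈ M ⊔ VL k := by rw [h.sup_eq_top]; trivial
  obtain ⟨v, hv, w, hw, hvw⟩ := Submodule.mem_sup.1 h1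
  refine ⟨v, hv, ?_, fun j hj => ?_⟩
  · have h2 := DFunLike.congr_fun hvw b
    rw [Finsupp.add_apply, hw b hb, add_zero, Finsupp.single_apply, if_pos rfl] at h2
    exact h2
  · have h2 := DFunLike.congr_fun hvw j
    rw [Finsupp.add_apply, hw j (hb.trans hj), add_zero, Finsupp.single_apply,
      if_neg (ne_of_lt hj)] at h2
    exact h2

theorem mem_map_EE {Θ : VV F →ₗ[F] VV F} {M : Submodule F (VV F)} {k : ℤ}
    (hmem : ∀ j, k < j → Θ (Finsupp.single j 1) ∈ M) : (EE k).map Θ ≤ M := by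
  rintro _ ⟨v, hv, rfl⟩
  rw [← Finsupp.sum_single v, Finsupp.sum, map_sum]
  refine Submodule.sum_mem _ fun j hj => ?_
  have hkj : k < j := by
    by_contra h
    exact absurd (hv j (not_lt.1 h)) (Finsupp.mem_support_iff.1 hj)
  have : (Finsupp.single j (v j) : VV F) = v j • Finsupp.single j 1 := by simp
  rw [this, map_smul]
  exact M.smul_mem _ (hmem j hkj)

/-- a triangular map sending `e_j`, `j > k`, into the complement `M` of `VL k` maps `EE k` onto `M` -/
theorem Tri.map_EE_eq {Θ : VV F →ₗ[F] VV F} (h : Tri Θ) {M : Submodule F (VV F)} {k a : ℤ}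
    (hM : IsCompl M (VL k)) (ha : M ≤ EE a)
    (hmem : ∀ j, k < j → Θ (Finsupp.single j 1) ∈ M) : M = (EE k).map Θ := by
  refine le_antisymm (BM_le (mem_map_EE hmem) ha ?_) (mem_map_EE hmem)
  rw [h.BM_map, BM_EE]
  exact BM_subset_of_isCompl hM

/-- periodic families `bb j ∈ e_j + VL (j-1)` define automorphisms as soon as they span a lattice -/
theorem exists_equiv_of_family (hm : 0 < m) (bb : ℤ → VV F)
    (hper : ∀ j q : ℤ, bb (j + m * q) = sh (m * q) (bb j))
    (htri : ∀ j, bb j j = 1 ∧ ∀ i, j < i → bb j i = 0)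
    {M : Submodule F (VV F)} {k : ℤ} (hL : IsLat m M) (hM : IsCompl M (VL k))
    (hmem : ∀ j, k < j → bb j ∈ M) :
    ∃ Θ : VV F ≃ₗ[F] VV F, (∀ v, Θ (sh (m : ℤ) v) = sh (m : ℤ) (Θ v)) ∧ Tri Θ.toLinearMap ∧
      ∀ j, Θ (Finsupp.single j 1) = bb j := by
  set Θ : VV F →ₗ[F] VV F := Finsupp.linearCombination F bb with hΘ
  have hs : ∀ j, Θ (Finsupp.single j 1) = bb j := fun j => by simp [hΘ]
  have htriΘ : Tri Θ := fun j => by rw [hs]; exact htri j
  have hcomm : ∀ (q : ℤ) (v : VV F), Θ (sh (m * q) v) = sh (m * q) (Θ v) := by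
    intro q v
    have h1 : Θ ∘ₗ (sh (m * q) : VV F ≃ₗ[F] VV F).toLinearMap =
        (sh (m * q) : VV F ≃ₗ[F] VV F).toLinearMap ∘ₗ Θ := by
      apply Finsupp.lhom_ext
      intro j x
      have e1 : (Finsupp.single j x : VV F) = x • Finsupp.single j 1 := by simp
      rw [e1, map_smul, map_smul]
      congr 1
      show Θ (sh (m * q) (Finsupp.single j 1)) = sh (m * q) (Θ (Finsupp.single j 1))
      rw [sh_single, hs, hs, hper]
    exact LinearMap.congr_fun h1 v
  obtain ⟨a, ha⟩ := hL.hi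
  obtain ⟨b, hb⟩ := hL.lo
  have hMeq : M = (EE k).map Θ := htriΘ.map_EE_eq hM ha (fun j hj => by rw [hs]; exact hmem j hj)
  have hsurj : Function.Surjective Θ := by
    intro v
    obtain ⟨c, hc⟩ : ∃ c : ℤ, v ∈ (EE c : Submodule F (VV F)) := by
      by_cases hv : v = 0
      · exact ⟨0, by rw [hv]; exact Submodule.zero_mem _⟩
      · have hne : v.support.Nonempty := Finsupp.support_nonempty_iff.2 hv
        refine ⟨v.support.min' hne - 1, fun j hj => ?_⟩
        by_contra h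
        have := v.support.min'_le j (Finsupp.mem_support_iff.2 h)
        omega
    -- shift up
    obtain ⟨q, hq⟩ : ∃ q : ℤ, b ≤ c + m * q := by
      refine ⟨|b| + |c|, ?_⟩
      have h1 : (1 : ℤ) ≤ m := by exact_mod_cast hm
      have h2 : |b| + |c| ≤ m * (|b| + |c|) := by
        nlinarith [abs_nonneg b, abs_nonneg c]
      have h3 := le_abs_self b
      have h4 := neg_abs_le c
      linarith
    have h1 : sh (m * q) v ∈ M := by
      apply hb
      apply EE_anti hq
      rw [← shS_EE, sh_mem_shS]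
      exact hc
    rw [hMeq] at h1
    obtain ⟨w, _, hw⟩ := h1
    refine ⟨sh (m * (-q)) w, ?_⟩
    rw [hcomm, hw, sh_sh]
    have : (m : ℤ) * -q + m * q = 0 := by ring
    rw [this, sh_zero]
  refine ⟨LinearEquiv.ofBijective Θ ⟨htriΘ.injective, hsurj⟩, fun v => ?_, ?_, fun j => ?_⟩
  · have := hcomm 1 v
    rw [mul_one] at this
    exact this
  · intro j
    exact htriΘ j
  · exact hs j

theorem exists_theta (hm : 0 < m) {σ : Finset (Submodule F (VV F))} (hσ : σ ∈ Xhat F m) :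
    ∃ Θ : VV F ≃ₗ[F] VV F, (∀ v, Θ (sh (m : ℤ) v) = sh (m : ℤ) (Θ v)) ∧ Tri Θ.toLinearMap ∧
      ∀ M ∈ σ, ∃ k : ℤ, M = (EE k).map Θ.toLinearMap := by
  classical
  rcases σ.eq_empty_or_nonempty with rfl | hne
  · refine ⟨LinearEquiv.refl F _, fun v => rfl, fun j => ⟨?_, fun i hi => ?_⟩, by simp⟩
    · simp
    · simp [ne_of_lt hi]
  obtain ⟨hD, hC⟩ := hσ
  choose! kk hkk using hC
  have hcomp : ∀ M ∈ σ, ∀ M' ∈ σ, M ≤ M' ∨ M' ≤ M := by
    intro M hM M' hM'
    have := hD.2 M hM M' hM' 0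
    simpa using this
  -- the largest member
  obtain ⟨M1, hM1, hmax⟩ : ∃ M1 ∈ σ, ∀ M ∈ σ, M ≤ M1 := by
    obtain ⟨M1, hM1, h⟩ := σ.exists_maximal hne
    refine ⟨M1, hM1, fun M hM => ?_⟩
    rcases hcomp M hM M1 hM1 with h1 | h1
    · exact h1
    · exact h hM h1
  have hk1 : ∀ M ∈ σ, kk M1 ≤ kk M := by
    intro M hM
    by_contra hlt
    obtain ⟨v, hv, h1, h2⟩ := exists_monic_of_isCompl (hkk M hM) (not_le.1 hlt)
    have h3 : kk M1 ∈ BM M1 := ⟨v, hmax M hM hv, by rw [h1]; exact one_ne_zero, h2⟩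
    have := BM_subset_of_isCompl (hkk M1 hM1) h3
    exact lt_irrefl _ (Set.mem_Ioi.1 this)
  -- monic vectors in the smallest possible member
  have hex : ∀ j : ℤ, kk M1 < j → ∃ v : VV F, v j = 1 ∧ (∀ i, j < i → v i = 0) ∧
      ∀ M ∈ σ, kk M < j → v ∈ M := by
    intro j hj
    have hne' : (σ.filter fun M => kk M < j).Nonempty := ⟨M1, Finset.mem_filter.2 ⟨hM1, hj⟩⟩
    obtain ⟨M0, hM0, h⟩ := (σ.filter fun M => kk M < j).exists_minimal hne'
    rw [Finset.mem_filter] at hM0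
    obtain ⟨v, hv, h1, h2⟩ := exists_monic_of_isCompl (hkk M0 hM0.1) hM0.2
    refine ⟨v, h1, h2, fun M hM hMj => ?_⟩
    rcases hcomp M0 hM0.1 M hM with h3 | h3
    · exact h3 hv
    · exact h (Finset.mem_filter.2 ⟨hM, hMj⟩) h3 hv
  choose! c hc1 hc2 hc3 using hex
  have hm' : (0 : ℤ) < m := by exact_mod_cast hm
  -- representative
  set k1 := kk M1 with hk1def
  let r : ℤ → ℤ := fun j => k1 + 1 + (j - k1 - 1) % m
  let q : ℤ → ℤ := fun j => (j - k1 - 1) / m
  have hr1 : ∀ j, k1 < r j := fun j => by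
    have := Int.emod_nonneg (j - k1 - 1) (ne_of_gt hm')
    simp only [r]; omega
  have hr2 : ∀ j, r j ≤ k1 + m := fun j => by
    have := Int.emod_lt_of_pos (j - k1 - 1) hm'
    simp only [r]; omega
  have hrq : ∀ j, j = r j + m * q j := fun j => by
    have := Int.emod_add_mul_ediv (j - k1 - 1) m
    simp only [r, q]; omega
  have hrs : ∀ j t : ℤ, r (j + m * t) = r j := fun j t => by
    simp only [r]
    have : j + m * t - k1 - 1 = (j - k1 - 1) + m * t := by ring
    rw [this, Int.add_mul_emod_self_left]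
  have hqs : ∀ j t : ℤ, q (j + m * t) = q j + t := fun j t => by
    simp only [q]
    have : j + m * t - k1 - 1 = (j - k1 - 1) + m * t := by ring
    rw [this, Int.add_mul_ediv_left _ _ (ne_of_gt hm')]
  let bb : ℤ → VV F := fun j => sh (m * q j) (c (r j))
  have hper : ∀ j t : ℤ, bb (j + m * t) = sh (m * t) (bb j) := fun j t => by
    simp only [bb]
    rw [hrs, hqs, sh_sh]
    congr 2
    ring
  have htri : ∀ j, bb j j = 1 ∧ ∀ i, j < i → bb j i = 0 := by
    intro j
    constructor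
    · simp only [bb]
      rw [sh_apply]
      have : j - m * q j = r j := by have := hrq j; omega
      rw [this]
      exact hc1 _ (hr1 j)
    · intro i hi
      simp only [bb]
      rw [sh_apply]
      apply hc2 _ (hr1 j)
      have := hrq j
      omega
  have hmem : ∀ M ∈ σ, ∀ j, kk M < j → bb j ∈ M := by
    intro M hM j hj
    have hq0 : 0 ≤ q j := by
      simp only [q]
      apply Int.ediv_nonneg _ hm'.le
      have := hk1 M hM
      omega
    rcases hq0.eq_or_lt with h0 | h0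
    · have hrj : r j = j := by
        have := hrq j
        rw [← h0] at this
        simpa using this.symm
      simp only [bb]
      rw [← h0, hrj, mul_zero, sh_zero]
      exact hc3 j (lt_of_le_of_lt (hk1 M hM) hj) M hM hj
    · have h1 : c (r j) ∈ M1 := hc3 _ (hr1 j) M1 hM1 (hr1 j)
      have h2 : bb j ∈ shS (m * q j) M1 := sh_mem_shS.2 h1
      have h3 : shS (m * q j) M1 ≤ shS (m * 1) M1 := shS_anti (hD.1 M1 hM1).lat.st (by omega)
      rw [mul_one] at h3
      have h4 := ((adj_iff (hD.1 M1 hM1) (hD.1 M hM)).1 (hD.2 M1 hM1 M hM)).2.1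
      exact h4 (h3 h2)
  obtain ⟨Θ, h1, h2, h3⟩ := exists_equiv_of_family hm bb hper htri (hD.1 M1 hM1).lat (hkk M1 hM1)
    (hmem M1 hM1)
  refine ⟨Θ, h1, h2, fun M hM => ⟨kk M, ?_⟩⟩
  obtain ⟨a, ha⟩ := (hD.1 M hM).lat.hi
  exact h2.map_EE_eq (hkk M hM) ha (fun j hj => by
    show Θ (Finsupp.single j 1) ∈ M
    rw [h3]; exact hmem M hM j hj)

end Crest.Agent.R66
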