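import Crest.Agent.R66.LDef

/-!
# Row 66, part (C-L), glue: triangular maps of `VV F` (helper62)

`Tri Θ`: `Θ e_j ∈ e_j + VL (j-1)` for all `j`.
-/

set_option autoImplicit false
set_option linter.unusedSectionVars false

namespace Crest.Agent.R66

variable {F : Type*} [Field F] {m : ℕ}

/-- unitriangular linear maps -/
def Tri (Θ : VV F →ₗ[F] VV F) : Prop :=
  ∀ j : ℤ, Θ (Finsupp.single j 1) j = 1 ∧ ∀ i, j < i → Θ (Finsupp.single j 1) i = 0

theorem map_apply_eq_sum (Θ : VV F →ₗ[F] VV F) (v : VV F) (i : ℤ) :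
    Θ v i = ∑ j ∈ v.support, v j * Θ (Finsupp.single j 1) i := by
  conv_lhs => rw [← Finsupp.sum_single v]
  rw [Finsupp.sum, map_sum, Finsupp.finsetSum_apply]
  refine Finset.sum_congr rfl fun j _ => ?_
  have : (Finsupp.single j (v j) : VV F) = v j • Finsupp.single j 1 := by simp
  rw [this, map_smul]
  simp

/-- a triangular map preserves the leading coefficient -/
theorem Tri.lead {Θ : VV F →ₗ[F] VV F} (h : Tri Θ) {v : VV F} {b : ℤ}
    (hv : ∀ j, b < j → v j = 0) : Θ v b = v b ∧ ∀ j, b < j → Θ v j = 0 := by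
  constructor
  · rw [map_apply_eq_sum]
    by_cases hb : v b = 0
    · rw [hb]
      refine Finset.sum_eq_zero fun j hj => ?_
      have h1 : j < b := by
        rcases lt_trichotomy j b with h1 | h1 | h1
        · exact h1
        · subst h1; exact absurd hb (Finsupp.mem_support_iff.1 hj)
        · exact absurd (hv j h1) (Finsupp.mem_support_iff.1 hj)
      rw [(h j).2 b h1, mul_zero]
    · rw [Finset.sum_eq_single b]
      · rw [(h b).1, mul_one]
      · intro j hj hjb
        have h1 : j < b := by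
          rcases lt_trichotomy j b with h1 | h1 | h1
          · exact h1
          · exact absurd h1 hjb
          · exact absurd (hv j h1) (Finsupp.mem_support_iff.1 hj)
        rw [(h j).2 b h1, mul_zero]
      · intro h1
        exact absurd (Finsupp.mem_support_iff.2 hb) h1
  · intro i hi
    rw [map_apply_eq_sum]
    refine Finset.sum_eq_zero fun j hj => ?_
    have h1 : j ≤ b := by
      by_contra h1
      exact absurd (hv j (not_le.1 h1)) (Finsupp.mem_support_iff.1 hj)
    rw [(h j).2 i (lt_of_le_of_lt h1 hi), mul_zero]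

/-- every nonzero vector has a leading index -/
theorem exists_lead {v : VV F} (hv : v ≠ 0) : ∃ b : ℤ, v b ≠ 0 ∧ ∀ j, b < j → v j = 0 := by
  have hne : v.support.Nonempty := Finsupp.support_nonempty_iff.2 hv
  refine ⟨v.support.max' hne, Finsupp.mem_support_iff.1 (v.support.max'_mem hne), fun j hj => ?_⟩
  by_contra h
  exact absurd (v.support.le_max' j (Finsupp.mem_support_iff.2 h)) (not_le.2 hj)

theorem Tri.injective {Θ : VV F →ₗ[F] VV F} (h : Tri Θ) : Function.Injective Θ := by
  rw [injective_iff_map_eq_zero]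
  intro v hv
  by_contra hne
  obtain ⟨b, hb, hb2⟩ := exists_lead hne
  have := (h.lead hb2).1
  rw [hv] at this
  exact hb this.symm

theorem Tri.BM_map {Θ : VV F →ₗ[F] VV F} (h : Tri Θ) (M : Submodule F (VV F)) :
    BM (M.map Θ) = BM M := by
  ext b
  constructor
  · rintro ⟨w, hw, h1, h2⟩
    obtain ⟨v, hv, rfl⟩ := Submodule.mem_map.1 hw
    have hv0 : v ≠ 0 := by
      rintro rfl
      rw [map_zero] at h1
      exact h1 rfl
    obtain ⟨c, hc, hc2⟩ := exists_lead hv0
    obtain ⟨h3, h4⟩ := h.lead hc2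
    have hbc : b = c := by
      rcases lt_trichotomy b c with h5 | h5 | h5
      · exact absurd (h2 c h5) (by rw [h3]; exact hc)
      · exact h5
      · exact absurd (h4 b h5) h1
    subst hbc
    exact ⟨v, hv, hc, hc2⟩
  · rintro ⟨v, hv, h1, h2⟩
    obtain ⟨h3, h4⟩ := h.lead h2
    exact ⟨Θ v, Submodule.mem_map_of_mem hv, by rw [h3]; exact h1, h4⟩

/-- the inverse of a triangular automorphism is triangular -/
theorem Tri.symm {Θ : VV F ≃ₗ[F] VV F} (h : Tri Θ.toLinearMap) : Tri Θ.symm.toLinearMap := by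
  intro j
  set v : VV F := Θ.symm (Finsupp.single j 1) with hv
  have hΘ : Θ v = Finsupp.single j 1 := by rw [hv, LinearEquiv.apply_symm_apply]
  have hv0 : v ≠ 0 := by
    intro h0
    rw [h0, map_zero] at hΘ
    exact one_ne_zero (Finsupp.single_eq_zero.1 hΘ.symm)
  obtain ⟨b, hb, hb2⟩ := exists_lead hv0
  obtain ⟨h3, h4⟩ := h.lead hb2
  have h3' : Θ v b = v b := h3
  have h4' : ∀ i, b < i → Θ v i = 0 := h4
  rw [hΘ] at h3' h4'
  have hjb : j = b := by
    by_contra hne
    rw [Finsupp.single_apply, if_neg hne] at h3'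
    exact hb h3'.symm
  subst hjb
  rw [Finsupp.single_apply, if_pos rfl] at h3'
  exact ⟨h3'.symm, hb2⟩

theorem Tri.map_VL_le {Θ : VV F →ₗ[F] VV F} (h : Tri Θ) (k : ℤ) :
    (VL k : Submodule F (VV F)).map Θ ≤ VL k := by
  rintro _ ⟨v, hv, rfl⟩
  exact (h.lead (b := k) hv).2

theorem Tri.map_VL {Θ : VV F ≃ₗ[F] VV F} (h : Tri Θ.toLinearMap) (k : ℤ) :
    (VL k : Submodule F (VV F)).map Θ.toLinearMap = VL k := by
  refine le_antisymm (h.map_VL_le k) fun v hv => ?_
  refine ⟨Θ.symm v, h.symm.map_VL_le k (Submodule.mem_map_of_mem hv), ?_⟩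
  exact Θ.apply_symm_apply v

theorem isCompl_EE_VL (k : ℤ) : IsCompl (EE k : Submodule F (VV F)) (VL k) := by
  constructor
  · rw [disjoint_iff, eq_bot_iff]
    rintro v ⟨h1, h2⟩
    rw [Submodule.mem_bot]
    ext j
    rcases le_or_gt j k with h | h
    · exact h1 j h
    · exact h2 j h
  · rw [codisjoint_iff, eq_top_iff]
    intro v _
    rw [Submodule.mem_sup]
    refine ⟨v.filter (fun j => k < j), ?_, v.filter (fun j => ¬ k < j), ?_, Finsupp.filter_add_filter_not _ _⟩
    · intro j hj
      rw [Finsupp.filter_apply, if_neg (not_lt.2 hj)]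
    · intro j hj
      rw [Finsupp.filter_apply, if_neg (not_not.2 hj)]

theorem IsCompl.map_equiv' {Θ : VV F ≃ₗ[F] VV F} {A B : Submodule F (VV F)} (h : IsCompl A B) :
    IsCompl (A.map Θ.toLinearMap) (B.map Θ.toLinearMap) := by
  constructor
  · rw [disjoint_iff, ← Submodule.map_inf _ Θ.injective, h.inf_eq_bot, Submodule.map_bot]
  · rw [codisjoint_iff, ← Submodule.map_sup, h.sup_eq_top, Submodule.map_top,
      LinearMap.range_eq_top]
    exact Θ.surjective

/-- images of the standard complements are complements -/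
theorem Tri.isCompl_map {Θ : VV F ≃ₗ[F] VV F} (h : Tri Θ.toLinearMap) (k : ℤ) :
    IsCompl ((EE k : Submodule F (VV F)).map Θ.toLinearMap) (VL k) := by
  have := IsCompl.map_equiv' (Θ := Θ) (isCompl_EE_VL (F := F) k)
  rwa [h.map_VL] at this

end Crest.Agent.R66
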